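import Vale.Agent.P337.Final
import Vale.Agent.P337.OracleCH

/-!
# The existential theory of the reals is in the counting hierarchy
-/

namespace Vale.Agent.Results.P337.EtrInCH

open Vale.Agent.P337

/-- The existential theory of the reals belongs to a level of the counting hierarchy
`C₀ = P`, `C_{j+1} = ⋃_{A ∈ C_j} PP^A`. -/
theorem result : ∃ j, ETR ∈ CClass j Tok := by
  obtain ⟨j, h⟩ := CH.mem_CClass etr_mem_CH
  exact ⟨j, h⟩

end Vale.Agent.Results.P337.EtrInCH
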